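import Vale.Agent.Lib.P012.helper17.Pools
import Vale.Agent.Lib.P012.helper17.Below

namespace Vale.Agent.Lib.P012

open Finset

/-- fixed pool data at scale `ρ` -/
def PoolData (ρ : ℕ) (S W PA PB : Finset ℕ) : Prop :=
  (∀ p ∈ S, p.Prime) ∧ (∀ p ∈ S, p ≤ 2 ^ (16 * ρ)) ∧ W ⊆ S ∧ W.card = 4 ∧ PA ⊆ S ∧ PB ⊆ S ∧
  Disjoint W PA ∧ Disjoint W PB ∧ Disjoint PA PB ∧ PA.card = 2 ^ ρ ∧ PB.card = 2 ^ ρ ∧
  S.card = 2 ^ (ρ + 1) + 4

/-- the evolving state: every `m < X` is a sum of at most `F` distinct divisors of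
`N = (∏ S) * X` -/
def Lv (ρ : ℕ) (S : Finset ℕ) (N X F : ℕ) : Prop :=
  GoodBelow X N F ∧ N = (∏ p ∈ S, p) * X ∧ 0 < X ∧
  N.primeFactors.card ≤ 2 ^ (ρ + 2) + 2 ^ ρ * F

theorem pool_card' (ρ N : ℕ) (hρ : 16 ≤ ρ) (hN : N.primeFactors.card ≤ 2 ^ (14 * ρ)) :
    2 ^ (14 * (ρ + 1) + 5) ≤ (pool ρ N).card := by
  classical
  have h1 := primes_count (16 * (ρ + 1))
  set PL := Nat.primesLE (2 ^ (16 * (ρ + 1))) with hPL
  set c := 2 ^ (8 * (ρ + 1)) with hc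
  have h3 : PL.card ≤ (PL.filter (fun q => c < q)).card + c := by
    have h4 : (PL.filter (fun q => ¬ c < q)).card ≤ c := by
      have hsub : PL.filter (fun q => ¬ c < q) ⊆ Finset.Icc 1 c := by
        intro q hq
        rw [Finset.mem_filter, hPL, Nat.mem_primesLE] at hq
        rw [Finset.mem_Icc]
        exact ⟨hq.1.2.one_lt.le, by omega⟩
      calc (PL.filter (fun q => ¬ c < q)).card ≤ (Finset.Icc 1 c).card := Finset.card_le_card hsub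
        _ = c := by simp
    have h5 := Finset.card_filter_add_card_filter_not (s := PL) (fun q => c < q)
    omega
  have h6 : (PL.filter (fun q => c < q)).card - N.primeFactors.card ≤ (pool ρ N).card := by
    unfold pool
    exact Finset.le_card_sdiff _ _
  by_contra hcon
  push Not at hcon
  have e1 : c ≤ 2 ^ (14 * (ρ + 1) + 3) := Nat.pow_le_pow_right (by norm_num) (by omega)
  have e2 : 2 ^ (14 * ρ) ≤ 2 ^ (14 * (ρ + 1) + 3) := Nat.pow_le_pow_right (by norm_num) (by omega)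
  have e3 : 2 ^ (14 * (ρ + 1) + 5) = 4 * 2 ^ (14 * (ρ + 1) + 3) := by
    rw [show 14 * (ρ + 1) + 5 = (14 * (ρ + 1) + 3) + 2 by ring, pow_add]; ring
  have e4 : 2 ^ (14 * (ρ + 1) + 6) = 8 * 2 ^ (14 * (ρ + 1) + 3) := by
    rw [show 14 * (ρ + 1) + 6 = (14 * (ρ + 1) + 3) + 3 by ring, pow_add]; ring
  have e5 : PL.card + 1 ≤ 2 ^ (14 * (ρ + 1) + 6) := by omega
  have e7 : 16 * (ρ + 1) ≤ 2 ^ (ρ + 5) := by
    have : ρ + 1 ≤ 2 ^ (ρ + 1) := Nat.lt_two_pow_self.le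
    calc 16 * (ρ + 1) ≤ 2 ^ 4 * 2 ^ (ρ + 1) := by omega
      _ = 2 ^ (ρ + 5) := by rw [← pow_add]; exact congrArg (fun k => 2 ^ k) (by omega)
  have e8 : 16 * (ρ + 1) * (PL.card + 1) ≤ 2 ^ (15 * (ρ + 1) + 10) := by
    calc 16 * (ρ + 1) * (PL.card + 1) ≤ 2 ^ (ρ + 5) * 2 ^ (14 * (ρ + 1) + 6) := Nat.mul_le_mul e7 e5
      _ = 2 ^ (15 * (ρ + 1) + 10) := by
        rw [← pow_add]; exact congrArg (fun k => 2 ^ k) (by omega)
  have e9 : 2 ^ (15 * (ρ + 1) + 10) + 2 ≤ 2 ^ (16 * (ρ + 1)) := by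
    have h1 : 2 ^ (15 * (ρ + 1) + 10 + 1) ≤ 2 ^ (16 * (ρ + 1)) :=
      Nat.pow_le_pow_right (by norm_num) (by omega)
    have h2 : 2 ^ 1 ≤ 2 ^ (15 * (ρ + 1) + 10) := Nat.pow_le_pow_right (by norm_num) (by omega)
    rw [pow_succ] at h1
    omega
  have e10 : 16 * (ρ + 1) * PL.card + 16 * (ρ + 1) + 1 = 16 * (ρ + 1) * (PL.card + 1) + 1 := by
    ring
  omega

theorem Psi_empty_le (A B : Finset ℕ) (ω n : ℕ) (hA : A.card = n) (hB : B.card = n) :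
    Psi A B ω ∅ ≤ 2 * n ^ 2 := by
  unfold Psi
  rw [Finset.powerset_empty, Finset.sum_singleton, Finset.card_empty, pow_zero, mul_one]
  unfold XX offc
  have h1 : (A.offDiag.filter (fun p : ℕ × ℕ => ∀ q ∈ (∅ : Finset ℕ), p.1 ≡ p.2 [MOD q])).card
      ≤ n ^ 2 := by
    refine le_trans (Finset.card_filter_le _ _) ?_
    rw [Finset.offDiag_card, hA, sq]
    exact Nat.sub_le _ _
  have h2 : (B.offDiag.filter (fun p : ℕ × ℕ => ∀ q ∈ (∅ : Finset ℕ), p.1 ≡ p.2 [MOD q])).card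
      ≤ n ^ 2 := by
    refine le_trans (Finset.card_filter_le _ _) ?_
    rw [Finset.offDiag_card, hB, sq]
    exact Nat.sub_le _ _
  omega

/-- one batch of `g` groups of `t` fresh primes at stage `s` (pool elements are products of
`2 ^ s` primes): the bound `X` grows by the product of the new moduli, at a cost of `4 * g`
further summands -/
theorem batch (ρ s t g : ℕ) (S W PA PB : Finset ℕ) (N X F : ℕ) (hρ : 16 ≤ ρ) (hs : s ≤ ρ)
    (ht : 0 < t) (hC1 : t * (48 * (ρ + 1) + 1) + 5 ≤ 4 * ((ρ - s) * 2 ^ s))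
    (hP : PoolData ρ S W PA PB) (h : Lv ρ S N X F)
    (hX : 4 * (2 ^ (16 * ρ)) ^ (2 * 2 ^ s + 1) ≤ X) (hFg : F + 4 * g ≤ 2 ^ (12 * ρ)) :
    ∃ N' X', Lv ρ S N' X' (F + 4 * g) ∧ 2 ^ (8 * (ρ + 1) * t * g) * X ≤ X' := by
  classical
  obtain ⟨hSp, hSle, hWS, hWc, hPA_S, hPB_S, hWA, hWB, hAB, hPAc, hPBc, hSc⟩ := hP
  obtain ⟨hGood, hNX, hXpos, hpf⟩ := h
  have hSpos : 0 < ∏ p ∈ S, p := Finset.prod_pos fun p hp => (hSp p hp).pos
  have hNpos : 0 < N := by rw [hNX]; positivity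
  have hSN : (∏ p ∈ S, p) ∣ N := by rw [hNX]; exact dvd_mul_right _ _
  set j := 2 ^ s with hj
  set r := 2 ^ (ρ - s) with hr
  have hjr : j * r = 2 ^ ρ := by
    rw [hj, hr, ← pow_add]; exact congrArg (fun k => 2 ^ k) (by omega)
  obtain ⟨A, hAc, hA⟩ := exists_transversals j r PA (fun p hp => hSp p (hPA_S hp))
    (by rw [hPAc, hjr])
  obtain ⟨B, hBc, hB⟩ := exists_transversals j r PB (fun p hp => hSp p (hPB_S hp))
    (by rw [hPBc, hjr])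
  set n := r ^ j with hn
  have hnpos : 0 < n := by rw [hn, hr]; positivity
  have hn4 : n ^ 4 = 2 ^ (4 * ((ρ - s) * 2 ^ s)) := by
    rw [hn, hr, hj, ← pow_mul, ← pow_mul]
    exact congrArg (fun k => 2 ^ k) (by ring)
  set ω := 2 ^ (12 * (ρ + 1) + 4) with hω
  set U0 := 2 ^ (16 * ρ) with hU0
  have hAle : ∀ a ∈ A, a ≤ U0 ^ j := by
    intro a ha
    obtain ⟨T, hT, hTc, rfl⟩ := hA a ha
    rw [← hTc]
    exact Finset.prod_le_pow_card T _ U0 (fun p hp => hSle p (hPA_S (hT hp)))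
  have hBle : ∀ b ∈ B, b ≤ U0 ^ j := by
    intro b hb
    obtain ⟨T, hT, hTc, rfl⟩ := hB b hb
    rw [← hTc]
    exact Finset.prod_le_pow_card T _ U0 (fun p hp => hSle p (hPB_S (hT hp)))
  have hMc : U0 ^ j ≤ (2 ^ (8 * (ρ + 1))) ^ (2 * j) := by
    rw [hU0, ← pow_mul, ← pow_mul]
    apply Nat.pow_le_pow_right (by norm_num)
    nlinarith
  have hpoolp : ∀ q ∈ pool ρ N, q.Prime ∧ 2 ^ (8 * (ρ + 1)) < q :=
    fun q hq => ⟨(mem_pool hq).1, (mem_pool hq).2.1⟩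
  have hbA := beta_bound' A (pool ρ N) (2 ^ (8 * (ρ + 1))) (2 * j) _ hAle hpoolp hMc
    (by positivity)
  have hbB := beta_bound' B (pool ρ N) (2 ^ (8 * (ρ + 1))) (2 * j) _ hBle hpoolp hMc
    (by positivity)
  -- size bounds
  have hρpow : ρ < 2 ^ ρ := Nat.lt_two_pow_self
  have hjle : j ≤ 2 ^ ρ := by rw [hj]; exact Nat.pow_le_pow_right (by norm_num) hs
  have htle : t ≤ 2 ^ ρ := by
    have h1 : (ρ - s) * 2 ^ s ≤ ρ * 2 ^ ρ :=
      Nat.mul_le_mul (Nat.sub_le _ _) (Nat.pow_le_pow_right (by norm_num) hs)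
    have h2 : t * (48 * (ρ + 1) + 1) ≤ 2 ^ ρ * (48 * (ρ + 1) + 1) := by nlinarith
    exact Nat.le_of_mul_le_mul_right h2 (by omega)
  have hgle : g ≤ 2 ^ (12 * ρ) := by omega
  have hFle : F ≤ 2 ^ (12 * ρ) := by omega
  have hpfN : N.primeFactors.card ≤ 2 ^ (14 * ρ) := by
    have e1 : 2 ^ ρ * F ≤ 2 ^ ρ * 2 ^ (12 * ρ) := Nat.mul_le_mul_left _ hFle
    have e2 : 2 ^ ρ * 2 ^ (12 * ρ) = 2 ^ (13 * ρ) := by
      rw [← pow_add]; exact congrArg (fun k => 2 ^ k) (by ring)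
    have e3 : 2 ^ (ρ + 2) ≤ 2 ^ (13 * ρ) := Nat.pow_le_pow_right (by norm_num) (by omega)
    have e4 : 2 ^ (13 * ρ + 1) ≤ 2 ^ (14 * ρ) := Nat.pow_le_pow_right (by norm_num) (by omega)
    have e5 : 2 ^ (13 * ρ + 1) = 2 * 2 ^ (13 * ρ) := by rw [pow_succ]; ring
    omega
  have hpc := pool_card' ρ N hρ hpfN
  have hcard : g * t + 2 * (2 * j) * t * ω ≤ (pool ρ N).card := by
    have e1 : g * t ≤ 2 ^ (12 * ρ) * 2 ^ ρ := Nat.mul_le_mul hgle htle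
    have e2 : 2 ^ (12 * ρ) * 2 ^ ρ = 2 ^ (13 * ρ) := by
      rw [← pow_add]; exact congrArg (fun k => 2 ^ k) (by ring)
    have e3 : 2 * (2 * j) * t * ω ≤ 2 * (2 * 2 ^ ρ) * 2 ^ ρ * ω :=
      Nat.mul_le_mul_right _ (Nat.mul_le_mul (by omega) htle)
    have e4 : 2 * (2 * 2 ^ ρ) * 2 ^ ρ * ω = 2 ^ (14 * (ρ + 1) + 4) := by
      rw [hω, show 14 * (ρ + 1) + 4 = 1 + (1 + ρ) + ρ + (12 * (ρ + 1) + 4) by ring, pow_add,
        pow_add, pow_add]; ring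
    have e5 : 2 ^ (13 * ρ) ≤ 2 ^ (14 * (ρ + 1) + 4) := Nat.pow_le_pow_right (by norm_num) (by omega)
    have e6 : 2 ^ (14 * (ρ + 1) + 5) = 2 * 2 ^ (14 * (ρ + 1) + 4) := by rw [pow_succ]; ring
    omega
  obtain ⟨L, Us, hLlen, hUpool, hUc, hUprod, hLG, hLd⟩ :=
    select A B (pool ρ N) (2 * j) ω t ht hbA hbB g hcard
  have hPsi0 := Psi_empty_le A B ω n hAc hBc
  have hUprime : ∀ q ∈ Us, q.Prime := fun q hq => (mem_pool (hUpool hq)).1
  have hUS : ∀ q ∈ Us, q ∉ S := by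
    intro q hq hqS
    apply (mem_pool (hUpool hq)).2.2.2
    rw [Nat.mem_primeFactors]
    exact ⟨hUprime q hq, dvd_trans (Finset.dvd_prod_of_mem _ hqS) hSN, hNpos.ne'⟩
  have hUN : ∀ q ∈ Us, ¬ q ∣ N := by
    intro q hq hdvd
    apply (mem_pool (hUpool hq)).2.2.2
    rw [Nat.mem_primeFactors]
    exact ⟨hUprime q hq, hdvd, hNpos.ne'⟩
  have hc1 : 2 ^ (t + 5) * (2 ^ (16 * (ρ + 1))) ^ (3 * t) ≤ n ^ 4 := by
    rw [hn4, ← pow_mul, ← pow_add]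
    apply Nat.pow_le_pow_right (by norm_num)
    have h1 : t + 5 + 16 * (ρ + 1) * (3 * t) = t * (48 * (ρ + 1) + 1) + 5 := by ring
    have hC1' : t * (48 * (ρ + 1) + 1) + 5 ≤ 4 * ((ρ - s) * 2 ^ s) := hC1
    rw [h1]
    exact hC1'
  have hQs : ∀ Q ∈ L.map (fun G => ∏ q ∈ G, q), 1 < Q ∧ Nat.Coprime Q N ∧ ∀ x : ℕ,
      ∃ T : Finset ℕ, (∀ t ∈ T, t ∣ ∏ p ∈ S, p ∧ t ≤ U0 ^ (2 * j + 1)) ∧ T.card ≤ 4 ∧
        (∑ t ∈ T, t) ≡ x [MOD Q] := by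
    intro Q hQ
    obtain ⟨G, hGL, rfl⟩ := List.mem_map.mp hQ
    obtain ⟨hGU, hGc, hGPsi⟩ := hLG G hGL
    have hGprime : ∀ q ∈ G, q.Prime := fun q hq => hUprime q (hGU hq)
    refine ⟨?_, ?_, ?_⟩
    · have h1 : 2 ^ G.card ≤ ∏ q ∈ G, q :=
        Finset.pow_card_le_prod G _ 2 fun q hq => (hGprime q hq).two_le
      have h2 : 2 ^ 1 ≤ 2 ^ G.card := Nat.pow_le_pow_right (by norm_num) (by
        rw [hGc]; exact ht)
      omega
    · exact Nat.Coprime.prod_left fun q hq =>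
        (Nat.Prime.coprime_iff_not_dvd (hGprime q hq)).mpr (hUN q (hGU hq))
    · intro x
      have hsum := verify A B G n (2 ^ (16 * (ρ + 1))) ω t hAc hBc hnpos
        (Nat.one_le_two_pow) (fun q hq => (mem_pool (hUpool (hGU hq))).2.2.1) hGc.le
        (by omega) hc1 (c_two ρ)
      exact group_cover' S W PA PB G A B U0 j hSp hSle hWS hWc hPA_S hPB_S hWA hWB hAB hA hB
        hGprime (fun q hq => hUS q (hGU hq)) hsum x
  have hpw : (L.map (fun G => ∏ q ∈ G, q)).Pairwise Nat.Coprime := by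
    rw [List.pairwise_map]
    refine hLd.imp_of_mem ?_
    intro G1 G2 h1 h2 hdisj
    refine Nat.Coprime.prod_left fun p hp => Nat.Coprime.prod_right fun q hq => ?_
    rw [Nat.coprime_primes (hUprime p ((hLG G1 h1).1 hp)) (hUprime q ((hLG G2 h2).1 hq))]
    intro hpq
    exact Finset.disjoint_left.mp hdisj hp (hpq ▸ hq)
  have hgood := towerB_list hGood hSN hX (L.map (fun G => ∏ q ∈ G, q)) hQs hpw
  rw [← hUprod, List.length_map, hLlen] at hgood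
  have hUpos : 0 < ∏ q ∈ Us, q := Finset.prod_pos fun q hq => (hUprime q hq).pos
  have hUbig : (2 ^ (8 * (ρ + 1))) ^ Us.card ≤ ∏ q ∈ Us, q :=
    Finset.pow_card_le_prod Us _ _ fun q hq => (mem_pool (hUpool hq)).2.1.le
  refine ⟨(∏ q ∈ Us, q) * N, (∏ q ∈ Us, q) * X, ⟨hgood, ?_, Nat.mul_pos hUpos hXpos, ?_⟩, ?_⟩
  · rw [hNX]; ring
  · rw [Nat.primeFactors_mul hUpos.ne' hNpos.ne', Nat.primeFactors_prod hUprime]
    refine le_trans (Finset.card_union_le _ _) ?_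
    rw [hUc]
    have e1 : g * t ≤ g * 2 ^ ρ := Nat.mul_le_mul_left _ htle
    have e2 : 2 ^ ρ * (F + 4 * g) = 2 ^ ρ * F + 4 * (g * 2 ^ ρ) := by ring
    omega
  · refine Nat.mul_le_mul_right _ ?_
    rw [hUc, ← pow_mul] at hUbig
    have : 8 * (ρ + 1) * t * g = 8 * (ρ + 1) * (g * t) := by ring
    rw [this]
    exact hUbig

end Vale.Agent.Lib.P012
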