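import Mathlib

namespace Vale.Agent.Lib.P012

open Finset

/-- `EE i = 2 ^ (2 ^ i / 2)`: `1, 2, 4, 16, 256, ...` -/
def EE (i : ℕ) : ℕ := 2 ^ (2 ^ i / 2)

theorem EE_zero : EE 0 = 1 := by simp [EE]

theorem EE_one : EE 1 = 2 := by simp [EE]

theorem EE_succ (i : ℕ) (hi : 1 ≤ i) : EE (i + 1) = EE i ^ 2 := by
  unfold EE
  rw [← pow_mul]
  congr 1
  obtain ⟨j, rfl⟩ : ∃ j, i = j + 1 := ⟨i - 1, by omega⟩
  have h1 : 2 ^ (j + 1 + 1) = 2 * 2 ^ (j + 1) := by rw [pow_succ]; ring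
  have h2 : 2 ^ (j + 1) = 2 * 2 ^ j := by rw [pow_succ]; ring
  omega

/-- invariant of the greedy (Fibonacci-Sylvester) expansion with threshold `Z` -/
def GState (a b Z : ℕ) (S : Finset ℕ) (a' b' : ℕ) : Prop :=
  (∀ n ∈ S, 2 ≤ n ∧ n ≤ Z) ∧ (∀ n ∈ S, n * a' < b') ∧ a' < b' ∧ a' ≤ a ∧ b' ≤ b * Z ^ 2 ∧
  (a : ℚ) / b = ∑ n ∈ S, (1 / (n : ℚ)) + (a' : ℚ) / b'

theorem gstate_step {a b Z : ℕ} (hab : a ≤ b) {S : Finset ℕ} {a' b' : ℕ}
    (h : GState a b Z S a' b') (hstep : b' ≤ a' * Z) (E : ℕ) (hE : a' * E ≤ b') :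
    ∃ n a'' b'', n ∉ S ∧ GState a b Z (insert n S) a'' b'' ∧ a'' * 2 ≤ b'' ∧
      a'' * E ^ 2 ≤ b'' := by
  classical
  obtain ⟨h1, h2, h3, h4, h5, h6⟩ := h
  have ha'pos : 0 < a' := by
    rcases Nat.eq_zero_or_pos a' with h0 | h0
    · subst h0; omega
    · exact h0
  set n := (b' - 1) / a' + 1 with hn
  have hq1 : (b' - 1) / a' * a' ≤ b' - 1 := Nat.div_mul_le_self _ _
  have hq2 : b' - 1 < (b' - 1) / a' * a' + a' := Nat.lt_div_mul_add ha'pos
  have hna : n * a' = (b' - 1) / a' * a' + a' := by rw [hn]; ring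
  have hge : b' ≤ n * a' := by omega
  have hlt : n * a' - b' < a' := by omega
  have hn2 : 2 ≤ n := by
    have : 1 ≤ (b' - 1) / a' := (Nat.one_le_div_iff ha'pos).mpr (by omega)
    omega
  have hnZ : n ≤ Z := by
    have : (b' - 1) / a' < Z := by
      rw [Nat.div_lt_iff_lt_mul ha'pos]
      have : b' ≤ Z * a' := by rw [mul_comm]; exact hstep
      omega
    omega
  have hnS : n ∉ S := by
    intro hmem
    have := h2 n hmem
    omega
  have hEn : E ≤ n := by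
    have : a' * E ≤ a' * n := by rw [mul_comm a' n]; exact hE.trans hge
    exact Nat.le_of_mul_le_mul_left this ha'pos
  refine ⟨n, n * a' - b', b' * n, hnS, ⟨?_, ?_, ?_, ?_, ?_, ?_⟩, ?_, ?_⟩
  · intro m hm
    rcases Finset.mem_insert.mp hm with rfl | hm
    · exact ⟨hn2, hnZ⟩
    · exact h1 m hm
  · intro m hm
    rcases Finset.mem_insert.mp hm with rfl | hm
    · have : (n * a' - b') * n < b' * n := Nat.mul_lt_mul_of_pos_right (by omega) (by omega)
      rw [mul_comm]; exact this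
    · have e1 := h2 m hm
      have e2 : m * (n * a' - b') ≤ m * a' := Nat.mul_le_mul_left _ hlt.le
      have e3 : b' * 1 ≤ b' * n := Nat.mul_le_mul_left _ (by omega)
      omega
  · have e3 : b' * 1 ≤ b' * n := Nat.mul_le_mul_left _ (by omega)
    omega
  · omega
  · have e1 : b' * n ≤ (a' * Z) * Z := Nat.mul_le_mul hstep hnZ
    have e2 : (a' * Z) * Z ≤ b * Z ^ 2 := by
      rw [sq, ← mul_assoc]
      exact Nat.mul_le_mul_right _ (Nat.mul_le_mul_right _ (h4.trans hab))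
    exact e1.trans e2
  · rw [h6, Finset.sum_insert hnS]
    have hb'q : (b' : ℚ) ≠ 0 := by
      have : 0 < b' := by omega
      exact_mod_cast this.ne'
    have hnq : (n : ℚ) ≠ 0 := by
      have : 0 < n := by omega
      exact_mod_cast this.ne'
    have hcast : ((n * a' - b' : ℕ) : ℚ) = (n : ℚ) * a' - b' := by
      rw [Nat.cast_sub hge, Nat.cast_mul]
    rw [hcast, Nat.cast_mul]
    field_simp
    ring
  · have e3 : b' * 2 ≤ b' * n := Nat.mul_le_mul_left _ hn2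
    omega
  · have e1 : (n * a' - b') * E ^ 2 ≤ a' * E ^ 2 := Nat.mul_le_mul_right _ hlt.le
    have e2 : a' * E ^ 2 = (a' * E) * E := by ring
    have e3 : (a' * E) * E ≤ b' * n := Nat.mul_le_mul hE hEn
    omega

theorem gstate_iter {a b Z : ℕ} (hab : a < b) (hZ : 1 ≤ Z) :
    ∀ i : ℕ, ∃ S a' b', GState a b Z S a' b' ∧ S.card ≤ i ∧ (a' * Z < b' ∨ a' * EE i ≤ b') := by
  classical
  intro i
  induction i with
  | zero =>
    refine ⟨∅, a, b, ⟨by simp, by simp, hab, le_rfl, ?_, by simp⟩, by simp, Or.inr ?_⟩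
    · exact Nat.le_mul_of_pos_right b (by positivity)
    · rw [EE_zero]; omega
  | succ i ih =>
    obtain ⟨S, a', b', hG, hc, hor⟩ := ih
    by_cases hstop : a' * Z < b'
    · exact ⟨S, a', b', hG, by omega, Or.inl hstop⟩
    · push Not at hstop
      have hE : a' * EE i ≤ b' := by
        rcases hor with h | h
        · omega
        · exact h
      obtain ⟨n, a'', b'', hnS, hG', h2, hsq⟩ := gstate_step hab.le hG hstop (EE i) hE
      refine ⟨insert n S, a'', b'', hG', ?_, Or.inr ?_⟩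
      · rw [Finset.card_insert_of_notMem hnS]; omega
      · rcases Nat.eq_zero_or_pos i with h0 | h0
        · subst h0
          rw [EE_one]; exact h2
        · rw [EE_succ i h0]; exact hsq

/-- number of greedy steps needed for threshold `Z` -/
def KK (Z : ℕ) : ℕ := Nat.log 2 (Nat.log 2 Z + 1) + 2

theorem lt_EE_KK (Z : ℕ) : Z < EE (KK Z) := by
  unfold EE KK
  have h1 : Z < 2 ^ (Nat.log 2 Z + 1) := Nat.lt_pow_succ_log_self (by norm_num) Z
  have h2 : Nat.log 2 Z + 1 < 2 ^ (Nat.log 2 (Nat.log 2 Z + 1) + 1) :=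
    Nat.lt_pow_succ_log_self (by norm_num) _
  have h3 : 2 ^ (Nat.log 2 (Nat.log 2 Z + 1) + 2) / 2 = 2 ^ (Nat.log 2 (Nat.log 2 Z + 1) + 1) := by
    rw [pow_succ]; simp
  rw [h3]
  exact lt_of_lt_of_le h1 (Nat.pow_le_pow_right (by norm_num) h2.le)

/-- greedy pre-phase: `a / b` is a sum of at most `KK Z` distinct unit fractions with
denominators in `[2, Z]` plus a remainder `a' / b'` with `a' * Z < b'` and `b' ≤ b * Z ^ 2` -/
theorem greedy (a b Z : ℕ) (hab : a < b) (hZ : 1 ≤ Z) :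
    ∃ (S : Finset ℕ) (a' b' : ℕ), (∀ n ∈ S, 2 ≤ n ∧ n ≤ Z) ∧ S.card ≤ KK Z ∧ 0 < b' ∧
      a' * Z < b' ∧ b' ≤ b * Z ^ 2 ∧
      (a : ℚ) / b = ∑ n ∈ S, (1 / (n : ℚ)) + (a' : ℚ) / b' := by
  obtain ⟨S, a', b', hG, hc, hor⟩ := gstate_iter hab hZ (KK Z)
  obtain ⟨h1, h2, h3, h4, h5, h6⟩ := hG
  refine ⟨S, a', b', h1, hc, by omega, ?_, h5, h6⟩
  rcases hor with h | h
  · exact h
  · rcases Nat.eq_zero_or_pos a' with h0 | h0
    · subst h0; omega
    · have := lt_EE_KK Z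
      calc a' * Z < a' * EE (KK Z) := Nat.mul_lt_mul_of_pos_left this h0
        _ ≤ b' := h

end Vale.Agent.Lib.P012
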