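import Vale.Agent.Lib.P012.helper17.Below
import Vale.Agent.Lib.P012.helper17.Greedy

namespace Vale.Agent.Lib.P012

open Finset

/-- Erdős reduction for a small fraction: if `a * Z < b`, `b ≤ X`, `N = Z * X` and every
`m < X` is a sum of at most `F` distinct divisors of `N`, then `a / b` is a sum of at most
`2 * F` distinct unit fractions with denominators exceeding `Z`. -/
theorem erdos_below {X N F Z a b : ℕ} (hN : GoodBelow X N F) (hNZ : N = Z * X) (hZ : 1 ≤ Z)
    (ha : 0 < a) (haZ : a * Z < b) (hbX : b ≤ X) :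
    ∃ S : Finset ℕ, (∀ n ∈ S, Z < n) ∧ S.card ≤ 2 * F ∧
      ∑ n ∈ S, (1 / (n : ℚ)) = (a : ℚ) / b := by
  classical
  have hbpos : 0 < b := by omega
  have hXpos : 0 < X := by omega
  have hNpos : 0 < N := by rw [hNZ]; positivity
  have hq : a * N / b < X := by
    rw [Nat.div_lt_iff_lt_mul hbpos, hNZ]
    calc a * (Z * X) = (a * Z) * X := by ring
      _ < b * X := Nat.mul_lt_mul_of_pos_right haZ hXpos
      _ = X * b := mul_comm _ _
  have hr : a * N % b < X := lt_of_lt_of_le (Nat.mod_lt _ hbpos) hbX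
  obtain ⟨S1, a1, a2, a3⟩ := hN _ hq
  obtain ⟨S0, b1, b2, b3⟩ := hN _ hr
  have pos1 : ∀ d ∈ S1, 0 < d := fun d hd => Nat.pos_of_dvd_of_pos (a1 d hd) hNpos
  have pos0 : ∀ d ∈ S0, 0 < d := fun d hd => Nat.pos_of_dvd_of_pos (b1 d hd) hNpos
  have hinj1 : Set.InjOn (fun d => N / d) (S1 : Set ℕ) := by
    intro x hx y hy hxy
    have e1 := Nat.div_mul_cancel (a1 x hx)
    have e2 := Nat.div_mul_cancel (a1 y hy)
    have hxy' : N / x = N / y := hxy
    have hpos : 0 < N / y := Nat.div_pos (Nat.le_of_dvd hNpos (a1 y hy)) (pos1 y hy)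
    rw [hxy'] at e1
    exact Nat.eq_of_mul_eq_mul_left hpos (e1.trans e2.symm)
  have hinj0 : Set.InjOn (fun d => b * (N / d)) (S0 : Set ℕ) := by
    intro x hx y hy hxy
    have e1 := Nat.div_mul_cancel (b1 x hx)
    have e2 := Nat.div_mul_cancel (b1 y hy)
    have hxy' : N / x = N / y := Nat.eq_of_mul_eq_mul_left hbpos hxy
    have hpos : 0 < N / y := Nat.div_pos (Nat.le_of_dvd hNpos (b1 y hy)) (pos0 y hy)
    rw [hxy'] at e1
    exact Nat.eq_of_mul_eq_mul_left hpos (e1.trans e2.symm)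
  have hdisj : Disjoint (S1.image (fun d => N / d)) (S0.image (fun d => b * (N / d))) := by
    rw [Finset.disjoint_left]
    intro x hx hx0
    obtain ⟨d, hd, rfl⟩ := Finset.mem_image.mp hx
    obtain ⟨d', hd', h⟩ := Finset.mem_image.mp hx0
    have e1 := Nat.div_mul_cancel (a1 d hd)
    have e2 := Nat.div_mul_cancel (b1 d' hd')
    have hpos : 0 < N / d' := Nat.div_pos (Nat.le_of_dvd hNpos (b1 d' hd')) (pos0 d' hd')
    have h5 : d' ≤ a * N % b := by rw [← b3]; exact le_sum_of_mem hd'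
    have h6 : a * N % b < b := Nat.mod_lt _ hbpos
    have h7 : (N / d') * d' = (N / d') * (b * d) := by
      calc (N / d') * d' = N := e2
        _ = N / d * d := e1.symm
        _ = b * (N / d') * d := by rw [h]
        _ = (N / d') * (b * d) := by ring
    have h8 : d' = b * d := Nat.eq_of_mul_eq_mul_left hpos h7
    have h9 : b ≤ b * d := Nat.le_mul_of_pos_right b (pos1 d hd)
    omega
  refine ⟨S1.image (fun d => N / d) ∪ S0.image (fun d => b * (N / d)), ?_, ?_, ?_⟩
  · intro n hn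
    rcases Finset.mem_union.mp hn with hn | hn
    · obtain ⟨d, hd, rfl⟩ := Finset.mem_image.mp hn
      have e1 := Nat.div_mul_cancel (a1 d hd)
      have h5 : d ≤ a * N / b := by rw [← a3]; exact le_sum_of_mem hd
      have h6 : Z * d < Z * X := Nat.mul_lt_mul_of_pos_left (by omega) (by omega)
      have h7 : Z * d < N / d * d := by rw [e1, hNZ]; exact h6
      exact lt_of_mul_lt_mul_right h7 (Nat.zero_le _)
    · obtain ⟨d, hd, rfl⟩ := Finset.mem_image.mp hn
      have hpos : 0 < N / d := Nat.div_pos (Nat.le_of_dvd hNpos (b1 d hd)) (pos0 d hd)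
      have h1 : b * 1 ≤ b * (N / d) := Nat.mul_le_mul_left b hpos
      have h2 : 1 * Z ≤ a * Z := Nat.mul_le_mul_right Z ha
      omega
  · rw [Finset.card_union_of_disjoint hdisj, Finset.card_image_of_injOn hinj1,
      Finset.card_image_of_injOn hinj0]; omega
  · rw [Finset.sum_union hdisj, Finset.sum_image hinj1, Finset.sum_image hinj0]
    have hNq : (N : ℚ) ≠ 0 := by exact_mod_cast hNpos.ne'
    have hbq : (b : ℚ) ≠ 0 := by exact_mod_cast hbpos.ne'
    have s1 : ∑ d ∈ S1, (1 / ((N / d : ℕ) : ℚ)) = ((a * N / b : ℕ) : ℚ) / N := by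
      rw [← a3, Nat.cast_sum, Finset.sum_div]
      refine Finset.sum_congr rfl fun d hd => ?_
      have hdq : (d : ℚ) ≠ 0 := by exact_mod_cast (pos1 d hd).ne'
      rw [Nat.cast_div (a1 d hd) hdq]
      field_simp
    have s0 : ∑ d ∈ S0, (1 / ((b * (N / d) : ℕ) : ℚ)) = ((a * N % b : ℕ) : ℚ) / (b * N) := by
      rw [← b3, Nat.cast_sum, Finset.sum_div]
      refine Finset.sum_congr rfl fun d hd => ?_
      have hdq : (d : ℚ) ≠ 0 := by exact_mod_cast (pos0 d hd).ne'
      rw [Nat.cast_mul, Nat.cast_div (b1 d hd) hdq]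
      field_simp
    rw [s1, s0]
    have hdm : (b : ℚ) * ((a * N / b : ℕ) : ℚ) + ((a * N % b : ℕ) : ℚ) = (a : ℚ) * N := by
      exact_mod_cast Nat.div_add_mod (a * N) b
    field_simp
    linarith

/-- greedy pre-phase followed by the Erdős reduction -/
theorem reduce {X N F Z a b : ℕ} (hN : GoodBelow X N F) (hNZ : N = Z * X) (hZ : 1 ≤ Z)
    (hab : a < b) (hbX : b * Z ^ 2 ≤ X) :
    ∃ S : Finset ℕ, (∀ n ∈ S, 2 ≤ n) ∧ S.card ≤ KK Z + 2 * F ∧
      ∑ n ∈ S, (1 / (n : ℚ)) = (a : ℚ) / b := by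
  classical
  obtain ⟨Sg, a', b', g1, g2, g3, g4, g5, g6⟩ := greedy a b Z hab hZ
  rcases Nat.eq_zero_or_pos a' with h0 | h0
  · subst h0
    refine ⟨Sg, fun n hn => (g1 n hn).1, by omega, ?_⟩
    rw [g6]; simp
  · obtain ⟨S', s1, s2, s3⟩ := erdos_below hN hNZ hZ h0 g4 (g5.trans hbX)
    have hdisj : Disjoint Sg S' := by
      rw [Finset.disjoint_left]
      intro n hn hn'
      have := (g1 n hn).2
      have := s1 n hn'
      omega
    refine ⟨Sg ∪ S', ?_, ?_, ?_⟩
    · intro n hn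
      rcases Finset.mem_union.mp hn with hn | hn
      · exact (g1 n hn).1
      · have := s1 n hn; omega
    · rw [Finset.card_union_of_disjoint hdisj]; omega
    · rw [Finset.sum_union hdisj, s3, g6]

end Vale.Agent.Lib.P012
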