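import Vale.Agent.Lib.P012.helper17.Stages
import Vale.Agent.Lib.P012.helper17.Reduce
import Vale.Agent.Lib.P012.helper91.FinalReal

namespace Vale.Agent.Lib.P012

theorem KK_le (ρ Z : ℕ) (hρ : 16 ≤ ρ) (hZ : Z ≤ 2 ^ (16 * ρ * (2 ^ (ρ + 1) + 4))) :
    KK Z ≤ 2 * ρ + 7 := by
  unfold KK
  have h1 : Nat.log 2 Z ≤ 16 * ρ * (2 ^ (ρ + 1) + 4) := by
    calc Nat.log 2 Z ≤ Nat.log 2 (2 ^ (16 * ρ * (2 ^ (ρ + 1) + 4))) := Nat.log_mono_right hZ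
      _ = 16 * ρ * (2 ^ (ρ + 1) + 4) := Nat.log_pow (by norm_num) _
  have h2 : Nat.log 2 Z + 1 < 2 ^ (2 * ρ + 6) := by
    have hρ2 : ρ < 2 ^ ρ := Nat.lt_two_pow_self
    have e1 : 2 ^ (ρ + 1) = 2 * 2 ^ ρ := by rw [pow_succ]; ring
    have e2 : 2 ^ (2 * ρ + 6) = 64 * (2 ^ ρ * 2 ^ ρ) := by
      rw [pow_add, show 2 * ρ = ρ + ρ by ring, pow_add]; ring
    have e3 : 2 ^ 16 ≤ 2 ^ ρ := Nat.pow_le_pow_right (by norm_num) hρ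
    rw [e1] at h1
    rw [e2]
    set P := 2 ^ ρ with hP
    have e4 : 65536 * P ≤ P * P := Nat.mul_le_mul_right P e3
    have e5 : ρ * P ≤ P * P := Nat.mul_le_mul_right P hρ2.le
    have e6 : 16 * ρ * (2 * P + 4) = 32 * (ρ * P) + 64 * ρ := by ring
    omega
  have h3 : Nat.log 2 (Nat.log 2 Z + 1) < 2 * ρ + 6 := Nat.log_lt_of_lt_pow (by omega) h2
  omega

theorem main_nat (a b : ℕ) (hab : a < b) (_hb : 16 ≤ b) :
    ∃ S : Finset ℕ, (∀ n ∈ S, 2 ≤ n) ∧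
      S.card ≤ 3183 * (Nat.log 2 (Nat.log 2 b) + 16)
        * (Nat.log 2 (Nat.log 2 (Nat.log 2 b) + 16) + 1) ∧
      ∑ n ∈ S, (1 / (n : ℚ)) = (a : ℚ) / b := by
  set ρ := Nat.log 2 (Nat.log 2 b) + 16 with hρdef
  have hρ : 16 ≤ ρ := by omega
  obtain ⟨N, X, F, Z, hG, hNZ, hZ1, hZle, hX, hF⟩ := construct ρ hρ
  have hb1 : b < 2 ^ (Nat.log 2 b + 1) := Nat.lt_pow_succ_log_self (by norm_num) b
  have hb2 : Nat.log 2 b < 2 ^ (Nat.log 2 (Nat.log 2 b) + 1) :=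
    Nat.lt_pow_succ_log_self (by norm_num) _
  have hb3 : 2 ^ (Nat.log 2 (Nat.log 2 b) + 1) ≤ 2 ^ ρ :=
    Nat.pow_le_pow_right (by norm_num) (by omega)
  have hb4 : b ≤ 2 ^ (2 ^ ρ) :=
    le_trans hb1.le (Nat.pow_le_pow_right (by norm_num) (by omega))
  have hbX : b * Z ^ 2 ≤ X := le_trans (Nat.mul_le_mul_right _ hb4) hX
  obtain ⟨S, s1, s2, s3⟩ := reduce hG hNZ hZ1 hab hbX
  refine ⟨S, s1, le_trans s2 ?_, s3⟩
  have hK := KK_le ρ Z hρ hZle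
  have hL : 4 ≤ Nat.log 2 ρ := (Nat.le_log_iff_pow_le (by norm_num) (by omega)).mpr (by omega)
  set L := Nat.log 2 ρ + 1 with hLdef
  have h1 : 16 * L ≤ ρ * L := Nat.mul_le_mul_right _ hρ
  have h2 : ρ * 5 ≤ ρ * L := Nat.mul_le_mul_left _ (by omega)
  have h3 : 3183 * ρ * L = 3183 * (ρ * L) := by ring
  have h4 : (96 * ρ + 98) * L = 96 * (ρ * L) + 98 * L := by ring
  unfold e0 at hF
  omega

theorem main_upgrade : ∃ C : ℝ, ∀ a b : ℕ, 0 < a → a < b → 16 ≤ b →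
    ∃ S : Finset ℕ, (∀ n ∈ S, 2 ≤ n) ∧
      (S.card : ℝ) ≤ C * Real.log (Real.log b) * Real.log (Real.log (Real.log b)) ∧
      ∑ n ∈ S, (1 / (n : ℚ)) = (a : ℚ) / b := by
  obtain ⟨C, hC⟩ := final_real
  refine ⟨C, ?_⟩
  intro a b _ hab hb
  obtain ⟨S, s1, s2, s3⟩ := main_nat a b hab hb
  refine ⟨S, s1, le_trans ?_ (hC b hb), s3⟩
  exact_mod_cast s2

end Vale.Agent.Lib.P012
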