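import Vale.Agent.Lib.P012.Level

namespace Vale.Agent.Lib.P012

open Finset

/-- a set `P` of `j * r` primes has `r ^ j` distinct products of `j`-element subsets
(one prime from each of `j` blocks of size `r`) -/
theorem exists_transversals (j r : ℕ) : ∀ P : Finset ℕ, (∀ p ∈ P, p.Prime) → P.card = j * r →
    ∃ A : Finset ℕ, A.card = r ^ j ∧ ∀ a ∈ A, ∃ T ⊆ P, T.card = j ∧ a = ∏ p ∈ T, p := by
  classical
  induction j with
  | zero =>
    intro P _ _
    refine ⟨{1}, by simp, ?_⟩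
    intro a ha
    rw [Finset.mem_singleton] at ha
    exact ⟨∅, Finset.empty_subset _, by simp, by simp [ha]⟩
  | succ j ih =>
    intro P hP hc
    obtain ⟨P0, hP0, hP0c⟩ := Finset.exists_subset_card_eq (s := P) (n := r) (by
      rw [hc]; nlinarith)
    have hc' : (P \ P0).card = j * r := by
      rw [Finset.card_sdiff_of_subset hP0, hc, hP0c]
      have : (j + 1) * r = j * r + r := by ring
      omega
    have hP' : ∀ p ∈ P \ P0, p.Prime := fun p hp => hP p (Finset.mem_sdiff.mp hp).1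
    obtain ⟨A', hA'c, hA'⟩ := ih (P \ P0) hP' hc'
    have key : ∀ p ∈ P0, ∀ a ∈ A', ∀ q ∈ P0, q ∣ p * a → q = p := by
      intro p hp a ha q hq hdvd
      obtain ⟨T, hT, -, rfl⟩ := hA' a ha
      rcases (Nat.Prime.dvd_mul (hP q (hP0 hq))).mp hdvd with h | h
      · exact (Nat.prime_dvd_prime_iff_eq (hP q (hP0 hq)) (hP p (hP0 hp))).mp h
      · have := prime_mem_of_dvd_prod T (fun x hx => hP' x (hT hx)) q (hP q (hP0 hq)) h
        exact absurd hq (Finset.mem_sdiff.mp (hT this)).2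
    refine ⟨(P0 ×ˢ A').image (fun x => x.1 * x.2), ?_, ?_⟩
    · rw [Finset.card_image_of_injOn, Finset.card_product, hP0c, hA'c, pow_succ, mul_comm]
      intro x hx y hy hxy
      rw [Finset.mem_coe, Finset.mem_product] at hx hy
      have hxy' : x.1 * x.2 = y.1 * y.2 := hxy
      have h1 : x.1 = y.1 :=
        key y.1 hy.1 y.2 hy.2 x.1 hx.1 (by rw [← hxy']; exact dvd_mul_right _ _)
      have h2 : x.2 = y.2 := by
        rw [h1] at hxy'
        exact Nat.eq_of_mul_eq_mul_left (hP _ (hP0 hy.1)).pos hxy'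
      exact Prod.ext h1 h2
    · intro a ha
      obtain ⟨x, hx, rfl⟩ := Finset.mem_image.mp ha
      rw [Finset.mem_product] at hx
      obtain ⟨T, hT, hTc, hTe⟩ := hA' x.2 hx.2
      have hnot : x.1 ∉ T := fun h => (Finset.mem_sdiff.mp (hT h)).2 hx.1
      refine ⟨insert x.1 T, ?_, ?_, ?_⟩
      · intro y hy
        rcases Finset.mem_insert.mp hy with rfl | hy
        · exact hP0 hx.1
        · exact (Finset.mem_sdiff.mp (hT hy)).1
      · rw [Finset.card_insert_of_notMem hnot, hTc]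
      · rw [Finset.prod_insert hnot, hTe]

theorem beta_bound' (A pool : Finset ℕ) (c β M : ℕ) (hA : ∀ a ∈ A, a ≤ M)
    (hpool : ∀ q ∈ pool, q.Prime ∧ c < q) (hMc : M ≤ c ^ β) (hc : 0 < c) :
    ∀ p ∈ A.offDiag, (pool.filter (fun q => p.1 ≡ p.2 [MOD q])).card ≤ β := by
  intro p hp
  rw [Finset.mem_offDiag] at hp
  obtain ⟨h1, h2, hne⟩ := hp
  have hx : p.1 ≤ M := hA _ h1
  have hy : p.2 ≤ M := hA _ h2
  set F := pool.filter (fun q => p.1 ≡ p.2 [MOD q]) with hF
  have hdvd : ∏ q ∈ F, q ∣ ((p.2 : ℤ) - p.1).natAbs := by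
    apply Finset.prod_primes_dvd
    · intro q hq
      exact (hpool q (Finset.mem_filter.mp hq).1).1.prime
    · intro q hq
      exact (modEq_iff_dvd_natAbs q p.1 p.2).mp (Finset.mem_filter.mp hq).2
  have hpos : 0 < ((p.2 : ℤ) - p.1).natAbs := by
    rw [Int.natAbs_pos]
    intro h
    apply hne
    have : (p.2 : ℤ) = p.1 := by linarith
    exact_mod_cast this.symm
  have hle : ((p.2 : ℤ) - p.1).natAbs ≤ M := by omega
  have h3 : (c + 1) ^ F.card ≤ ∏ q ∈ F, q :=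
    Finset.pow_card_le_prod F _ (c + 1) fun q hq => (hpool q (Finset.mem_filter.mp hq).1).2
  have h4 : (c + 1) ^ F.card ≤ (c + 1) ^ β := by
    calc (c + 1) ^ F.card ≤ ∏ q ∈ F, q := h3
      _ ≤ ((p.2 : ℤ) - p.1).natAbs := Nat.le_of_dvd hpos hdvd
      _ ≤ M := hle
      _ ≤ c ^ β := hMc
      _ ≤ (c + 1) ^ β := Nat.pow_le_pow_left (Nat.le_succ c) β
  by_contra hcon
  push Not at hcon
  have h5 : (c + 1) ^ β < (c + 1) ^ F.card :=
    Nat.pow_lt_pow_right (by omega) hcon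
  omega

/-- one group with general product pools: every residue modulo the product of `G` is a sum
of at most four divisors of the product of `S`, each at most `U ^ (2 * j + 1)` -/
theorem group_cover' (S W PA PB G A B : Finset ℕ) (U j : ℕ) (hS : ∀ p ∈ S, p.Prime)
    (hSU : ∀ p ∈ S, p ≤ U)
    (hW : W ⊆ S) (hWc : W.card = 4) (hPA : PA ⊆ S) (hPB : PB ⊆ S)
    (hWA : Disjoint W PA) (hWB : Disjoint W PB) (hAB : Disjoint PA PB)
    (hA : ∀ a ∈ A, ∃ T ⊆ PA, T.card = j ∧ a = ∏ p ∈ T, p)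
    (hB : ∀ b ∈ B, ∃ T ⊆ PB, T.card = j ∧ b = ∏ p ∈ T, p)
    (hG : ∀ q ∈ G, q.Prime) (hGS : ∀ q ∈ G, q ∉ S)
    (hsum : ∑ D ∈ G.powerset.erase ∅,
        (∏ q ∈ D, q) ^ 3 * (coll A D) ^ 2 * (coll B D) ^ 2
      < A.card ^ 4 * B.card ^ 4) (x : ℕ) :
    ∃ T : Finset ℕ, (∀ t ∈ T, t ∣ ∏ p ∈ S, p ∧ t ≤ U ^ (2 * j + 1)) ∧ T.card ≤ 4 ∧
      (∑ t ∈ T, t) ≡ x [MOD ∏ q ∈ G, q] := by
  classical
  set w : Fin 4 → ℕ := fun i => W.orderEmbOfFin hWc i with hwdef
  have hwW : ∀ i, w i ∈ W := fun i => Finset.orderEmbOfFin_mem W hWc i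
  have hwp : ∀ i, (w i).Prime := fun i => hS _ (hW (hwW i))
  have hw : ∀ i, ∀ q ∈ G, ¬ q ∣ w i := by
    intro i q hq hdvd
    have : q = w i := (Nat.prime_dvd_prime_iff_eq (hG q hq) (hwp i)).mp hdvd
    exact hGS q hq (this ▸ hW (hwW i))
  obtain ⟨a, b, ha, hb, hab⟩ := cover G hG A B w hw hsum x
  have haT : ∀ i, ∃ T1 ⊆ PA, T1.card = j ∧ a i = ∏ p ∈ T1, p := fun i => hA _ (ha i)
  have hbT : ∀ i, ∃ T2 ⊆ PB, T2.card = j ∧ b i = ∏ p ∈ T2, p := fun i => hB _ (hb i)
  have hinj : Function.Injective (fun i => w i * a i * b i) := by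
    intro i i' hij
    have hij' : w i * a i * b i = w i' * a i' * b i' := hij
    have h1 : w i ∣ w i' * a i' * b i' := by
      rw [← hij', mul_assoc]; exact dvd_mul_right _ _
    rcases (Nat.Prime.dvd_mul (hwp i)).mp h1 with h2 | h2
    · rcases (Nat.Prime.dvd_mul (hwp i)).mp h2 with h3 | h3
      · have h4 : w i = w i' := (Nat.prime_dvd_prime_iff_eq (hwp i) (hwp i')).mp h3
        exact (W.orderEmbOfFin hWc).injective h4
      · obtain ⟨T1, hT1, -, e⟩ := haT i'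
        rw [e] at h3
        have h5 := prime_mem_of_dvd_prod T1 (fun p hp => hS p (hPA (hT1 hp))) _ (hwp i) h3
        exact absurd (hT1 h5) (Finset.disjoint_left.mp hWA (hwW i))
    · obtain ⟨T2, hT2, -, e⟩ := hbT i'
      rw [e] at h2
      have h5 := prime_mem_of_dvd_prod T2 (fun p hp => hS p (hPB (hT2 hp))) _ (hwp i) h2
      exact absurd (hT2 h5) (Finset.disjoint_left.mp hWB (hwW i))
  have hprod : (∏ p ∈ W, p) * ((∏ p ∈ PA, p) * (∏ p ∈ PB, p)) ∣ ∏ p ∈ S, p := by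
    rw [← Finset.prod_union hAB, ← Finset.prod_union (Finset.disjoint_union_right.mpr ⟨hWA, hWB⟩)]
    exact Finset.prod_dvd_prod_of_subset _ _ _
      (Finset.union_subset hW (Finset.union_subset hPA hPB))
  have hU1 : 1 ≤ U := by
    have := hwp 0
    exact le_trans this.one_lt.le (hSU _ (hW (hwW 0)))
  refine ⟨Finset.univ.image (fun i => w i * a i * b i), ?_, ?_, ?_⟩
  · intro t ht
    obtain ⟨i, _, rfl⟩ := Finset.mem_image.mp ht
    obtain ⟨T1, hT1, hT1c, e1⟩ := haT i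
    obtain ⟨T2, hT2, hT2c, e2⟩ := hbT i
    constructor
    · refine dvd_trans ?_ hprod
      rw [mul_assoc]
      refine mul_dvd_mul (Finset.dvd_prod_of_mem _ (hwW i)) (mul_dvd_mul ?_ ?_)
      · rw [e1]; exact Finset.prod_dvd_prod_of_subset _ _ _ hT1
      · rw [e2]; exact Finset.prod_dvd_prod_of_subset _ _ _ hT2
    · have b1 : a i ≤ U ^ j := by
        rw [e1, ← hT1c]
        exact Finset.prod_le_pow_card T1 _ U (fun p hp => hSU p (hPA (hT1 hp)))
      have b2 : b i ≤ U ^ j := by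
        rw [e2, ← hT2c]
        exact Finset.prod_le_pow_card T2 _ U (fun p hp => hSU p (hPB (hT2 hp)))
      have b0 : w i ≤ U := hSU _ (hW (hwW i))
      calc w i * a i * b i ≤ U * U ^ j * U ^ j := Nat.mul_le_mul (Nat.mul_le_mul b0 b1) b2
        _ = U ^ (2 * j + 1) := by ring
  · exact le_trans Finset.card_image_le (by simp)
  · rw [Finset.sum_image (fun i _ i' _ h => hinj h)]
    exact hab

end Vale.Agent.Lib.P012
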