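import Mathlib

namespace Vale.Agent.Lib.P012

/-- number of fresh primes per group at stage `s` -/
def tS (ρ s : ℕ) : ℕ := (4 * ((ρ - s) * 2 ^ s) - 5) / (48 * (ρ + 1) + 1)

/-- number of groups at stage `s` -/
def gS (ρ s : ℕ) : ℕ := 2 ^ (s + 2) / tS ρ s + 1

/-- exponent of the binary base -/
def e0 (ρ : ℕ) : ℕ := 16 * ρ * (2 ^ 8 + 1) + 2

/-- number of summands after `k` stages (stages `7, …, 7 + k - 1`) -/
def FS (ρ k : ℕ) : ℕ := e0 ρ + 4 * ∑ s ∈ Finset.Ico 7 (7 + k), gS ρ s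

end Vale.Agent.Lib.P012
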