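import Vale.Agent.Lib.P012.helper17.Batch
import Vale.Agent.Lib.P012.helper17.StageDefs
import Vale.Agent.Lib.P012.helper63.StageArith
import Vale.Agent.Lib.P012.helper92.Harmonic
import Vale.Agent.Lib.P012.helper78.PoolExists

namespace Vale.Agent.Lib.P012

open Finset

theorem crude_pow (ρ : ℕ) (hρ : 16 ≤ ρ) : 384 * ρ ^ 2 + 6300 * ρ + 58 ≤ 2 ^ (12 * ρ) := by
  have h1 : ρ < 2 ^ ρ := Nat.lt_two_pow_self
  have h2 : 2 ^ (2 * ρ + 13) ≤ 2 ^ (12 * ρ) := Nat.pow_le_pow_right (by norm_num) (by omega)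
  have h3 : 2 ^ (2 * ρ + 13) = 8192 * (2 ^ ρ) ^ 2 := by
    rw [pow_add, show 2 * ρ = ρ * 2 by ring, pow_mul]; ring
  nlinarith

theorem two_pow_ge (ρ : ℕ) (hρ : 16 ≤ ρ) : 128 * ρ ≤ 2 ^ ρ := by
  induction ρ, hρ using Nat.le_induction with
  | base => norm_num
  | succ n hn ih => rw [pow_succ]; omega

theorem gS_crude (ρ s : ℕ) (hρ : 16 ≤ ρ) (hs7 : 7 ≤ s) (hs : s + 1 ≤ ρ) :
    gS ρ s ≤ 96 * ρ + 99 := by
  have h1 := gS_le ρ s hρ hs7 hs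
  have h2 : (96 * ρ + 98) / (ρ - s) ≤ 96 * ρ + 98 := Nat.div_le_self _ _
  omega

theorem FS_succ (ρ k : ℕ) : FS ρ (k + 1) = FS ρ k + 4 * gS ρ (7 + k) := by
  unfold FS
  rw [show 7 + (k + 1) = 7 + k + 1 by ring, Finset.sum_Ico_succ_top (by omega)]
  ring

theorem FS_crude (ρ k : ℕ) (hρ : 16 ≤ ρ) (hk : 7 + k ≤ ρ) :
    FS ρ k ≤ 384 * ρ ^ 2 + 4508 * ρ + 2 := by
  unfold FS
  have h1 : ∑ s ∈ Finset.Ico 7 (7 + k), gS ρ s ≤ (Finset.Ico 7 (7 + k)).card • (96 * ρ + 99) := by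
    refine Finset.sum_le_card_nsmul _ _ _ ?_
    intro s hs
    rw [Finset.mem_Ico] at hs
    exact gS_crude ρ s hρ hs.1 (by omega)
  rw [Nat.card_Ico, smul_eq_mul] at h1
  have h2 : (7 + k - 7) * (96 * ρ + 99) ≤ ρ * (96 * ρ + 99) :=
    Nat.mul_le_mul_right _ (by omega)
  have h3 : ρ * (96 * ρ + 99) = 96 * ρ ^ 2 + 99 * ρ := by ring
  unfold e0
  omega

theorem base_state (ρ : ℕ) (S W PA PB : Finset ℕ) (hρ : 16 ≤ ρ) (hP : PoolData ρ S W PA PB) :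
    Lv ρ S ((∏ p ∈ S, p) * 2 ^ e0 ρ) (2 ^ e0 ρ) (e0 ρ) := by
  obtain ⟨hSp, hSle, hWS, hWc, hPA_S, hPB_S, hWA, hWB, hAB, hPAc, hPBc, hSc⟩ := hP
  have hSpos : 0 < ∏ p ∈ S, p := Finset.prod_pos fun p hp => (hSp p hp).pos
  refine ⟨?_, rfl, by positivity, ?_⟩
  · have := goodBelow_two_pow (e0 ρ) (∏ p ∈ S, p)
    rwa [mul_comm] at this
  · have he : e0 ρ ≠ 0 := by unfold e0; omega
    rw [Nat.primeFactors_mul hSpos.ne' (by positivity), Nat.primeFactors_prod hSp,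
      Nat.primeFactors_prime_pow he Nat.prime_two]
    refine le_trans (Finset.card_union_le _ _) ?_
    rw [hSc, Finset.card_singleton]
    have h1 : 2 ^ (ρ + 2) = 2 * 2 ^ (ρ + 1) := by rw [pow_succ]; ring
    have h2 : 2 ^ 3 ≤ 2 ^ (ρ + 1) := Nat.pow_le_pow_right (by norm_num) (by omega)
    have h3 : 0 ≤ 2 ^ ρ * e0 ρ := Nat.zero_le _
    omega

theorem stages (ρ : ℕ) (S W PA PB : Finset ℕ) (hρ : 16 ≤ ρ) (hP : PoolData ρ S W PA PB) :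
    ∀ k, 7 + k + 1 ≤ ρ → ∃ N X, Lv ρ S N X (FS ρ k) ∧
      2 ^ (16 * ρ * (2 ^ (7 + k + 1) + 1) + 2) ≤ X := by
  intro k
  induction k with
  | zero =>
    intro _
    refine ⟨(∏ p ∈ S, p) * 2 ^ e0 ρ, 2 ^ e0 ρ, ?_, ?_⟩
    · have h := base_state ρ S W PA PB hρ hP
      have h0 : FS ρ 0 = e0 ρ := by simp [FS]
      rw [h0]; exact h
    · exact Nat.pow_le_pow_right (by norm_num) (by unfold e0; norm_num)
  | succ k ih =>
    intro hk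
    obtain ⟨N, X, hLv, hX⟩ := ih (by omega)
    have hs7 : 7 ≤ 7 + k := by omega
    have hsρ : 7 + k + 1 ≤ ρ := by omega
    have hXb : 4 * (2 ^ (16 * ρ)) ^ (2 * 2 ^ (7 + k) + 1) ≤ X := by
      refine le_trans (le_of_eq ?_) hX
      rw [← pow_mul, show (4 : ℕ) = 2 ^ 2 by norm_num, ← pow_add]
      congr 1
      rw [pow_succ]; ring
    have hFg : FS ρ k + 4 * gS ρ (7 + k) ≤ 2 ^ (12 * ρ) := by
      rw [← FS_succ]
      have h1 := FS_crude ρ (k + 1) hρ (by omega)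
      have h2 := crude_pow ρ hρ
      omega
    obtain ⟨N', X', hLv', hX'⟩ := batch ρ (7 + k) (tS ρ (7 + k)) (gS ρ (7 + k)) S W PA PB N X
      (FS ρ k) hρ (by omega) (tS_pos ρ _ hρ hs7 hsρ) (tS_hC1 ρ _ hρ hs7 hsρ) hP hLv hXb hFg
    refine ⟨N', X', ?_, ?_⟩
    · rw [FS_succ]; exact hLv'
    · have h1 := tS_mul_gS ρ (7 + k) hρ hs7 hsρ
      have h2 : 16 * ρ * 2 ^ (7 + k + 1) ≤ 8 * (ρ + 1) * tS ρ (7 + k) * gS ρ (7 + k) := by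
        have e1 : 8 * (ρ + 1) * 2 ^ (7 + k + 2) ≤ 8 * (ρ + 1) * (tS ρ (7 + k) * gS ρ (7 + k)) :=
          Nat.mul_le_mul_left _ h1
        have e2 : 2 ^ (7 + k + 2) = 2 * 2 ^ (7 + k + 1) := by rw [pow_succ]; ring
        have e3 : 8 * (ρ + 1) * (tS ρ (7 + k) * gS ρ (7 + k))
            = 8 * (ρ + 1) * tS ρ (7 + k) * gS ρ (7 + k) := by ring
        rw [e2, e3] at e1
        refine le_trans ?_ e1
        have e4 : 8 * (ρ + 1) * (2 * 2 ^ (7 + k + 1)) = 16 * ρ * 2 ^ (7 + k + 1)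
            + 16 * 2 ^ (7 + k + 1) := by ring
        omega
      have h3 : 2 ^ (16 * ρ * (2 ^ (7 + (k + 1) + 1) + 1) + 2)
          = 2 ^ (16 * ρ * 2 ^ (7 + k + 1)) * 2 ^ (16 * ρ * (2 ^ (7 + k + 1) + 1) + 2) := by
        rw [← pow_add]
        congr 1
        rw [show 7 + (k + 1) + 1 = 7 + k + 1 + 1 by ring, pow_succ 2 (7 + k + 1)]
        ring
      rw [h3]
      calc 2 ^ (16 * ρ * 2 ^ (7 + k + 1)) * 2 ^ (16 * ρ * (2 ^ (7 + k + 1) + 1) + 2)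
          ≤ 2 ^ (8 * (ρ + 1) * tS ρ (7 + k) * gS ρ (7 + k)) * X :=
            Nat.mul_le_mul (Nat.pow_le_pow_right (by norm_num) h2) hX
        _ ≤ X' := hX'

/-- the final construction at scale `ρ` -/
theorem construct (ρ : ℕ) (hρ : 16 ≤ ρ) : ∃ N X F Z : ℕ, GoodBelow X N F ∧ N = Z * X ∧ 1 ≤ Z ∧
    Z ≤ 2 ^ (16 * ρ * (2 ^ (ρ + 1) + 4)) ∧ 2 ^ (2 ^ ρ) * Z ^ 2 ≤ X ∧
    F ≤ e0 ρ + 4 * ((96 * ρ + 98) * (Nat.log 2 ρ + 1) + ρ) + 4 * (448 * ρ + 14) := by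
  obtain ⟨S, W, PA, PB, hP⟩ := exists_poolData ρ hρ
  obtain ⟨N, X, hLv, hX⟩ := stages ρ S W PA PB hρ hP (ρ - 8) (by omega)
  have hk : 7 + (ρ - 8) + 1 = ρ := by omega
  rw [hk] at hX
  obtain ⟨s, hs1⟩ : ∃ s, s + 1 = ρ := ⟨ρ - 1, by omega⟩
  have hs7 : 7 ≤ s := by omega
  have hsρ : s + 1 ≤ ρ := by omega
  have e2s : 2 * 2 ^ s = 2 ^ ρ := by rw [← hs1, pow_succ]; ring
  have hXb : 4 * (2 ^ (16 * ρ)) ^ (2 * 2 ^ s + 1) ≤ X := by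
    refine le_trans (le_of_eq ?_) hX
    rw [e2s, ← pow_mul, show (4 : ℕ) = 2 ^ 2 by norm_num, ← pow_add]
    congr 1
    ring
  have hFg : FS ρ (ρ - 8) + 4 * (448 * ρ + 14) ≤ 2 ^ (12 * ρ) := by
    have h1 := FS_crude ρ (ρ - 8) hρ (by omega)
    have h2 := crude_pow ρ hρ
    omega
  obtain ⟨N', X', hLv', hX'⟩ := batch ρ s (tS ρ s) (448 * ρ + 14) S W PA PB N X
    (FS ρ (ρ - 8)) hρ (by omega) (tS_pos ρ _ hρ hs7 hsρ) (tS_hC1 ρ _ hρ hs7 hsρ) hP hLv hXb hFg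
  obtain ⟨hSp, hSle, hWS, hWc, hPA_S, hPB_S, hWA, hWB, hAB, hPAc, hPBc, hSc⟩ := hP
  have hSpos : 0 < ∏ p ∈ S, p := Finset.prod_pos fun p hp => (hSp p hp).pos
  have hZle : ∏ p ∈ S, p ≤ 2 ^ (16 * ρ * (2 ^ (ρ + 1) + 4)) := by
    have h1 := Finset.prod_le_pow_card S (fun p => p) (2 ^ (16 * ρ)) hSle
    rw [hSc, ← pow_mul] at h1
    exact h1
  have hXpos : 0 < X := hLv.2.2.1
  refine ⟨N', X', _, ∏ p ∈ S, p, hLv'.1, hLv'.2.1, hSpos, hZle, ?_, ?_⟩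
  · have hl := tS_lower ρ s hρ hs7 hsρ
    have hd : ρ - s = 1 := by omega
    rw [hd, hs1, one_mul] at hl
    have h128 := two_pow_ge ρ hρ
    set T := tS ρ s with hT
    set P := 2 ^ ρ with hPdef
    have hP2 : 2 ^ (ρ + 1) = 2 * P := by rw [pow_succ]; ring
    have a1 : (64 * ρ + 2) * P ≤ (64 * ρ + 2) * (T * (48 * (ρ + 1) + 1)) :=
      Nat.mul_le_mul_left _ hl
    have a2 : (64 * ρ + 2) * (48 * (ρ + 1) + 1) ≤ 8 * (ρ + 1) * (448 * ρ + 14) := by nlinarith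
    have a4 : T * ((64 * ρ + 2) * (48 * (ρ + 1) + 1)) ≤ T * (8 * (ρ + 1) * (448 * ρ + 14)) :=
      Nat.mul_le_mul_left _ a2
    have a5 : P + 2 * (16 * ρ * (2 * P + 4)) ≤ 8 * (ρ + 1) * T * (448 * ρ + 14) := by
      have a3 : (64 * ρ + 2) * (T * (48 * (ρ + 1) + 1))
          = T * ((64 * ρ + 2) * (48 * (ρ + 1) + 1)) := by ring
      have a6 : T * (8 * (ρ + 1) * (448 * ρ + 14)) = 8 * (ρ + 1) * T * (448 * ρ + 14) := by ring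
      have a7 : P + 2 * (16 * ρ * (2 * P + 4)) + P = (64 * ρ + 2) * P + 128 * ρ := by ring
      omega
    have hZ2 : (∏ p ∈ S, p) ^ 2 ≤ 2 ^ (2 * (16 * ρ * (2 * P + 4))) := by
      have h1 := Nat.pow_le_pow_left hZle 2
      rw [← pow_mul, hP2] at h1
      rw [mul_comm 2]; exact h1
    calc 2 ^ P * (∏ p ∈ S, p) ^ 2 ≤ 2 ^ P * 2 ^ (2 * (16 * ρ * (2 * P + 4))) :=
          Nat.mul_le_mul_left _ hZ2
      _ = 2 ^ (P + 2 * (16 * ρ * (2 * P + 4))) := by rw [← pow_add]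
      _ ≤ 2 ^ (8 * (ρ + 1) * T * (448 * ρ + 14)) := Nat.pow_le_pow_right (by norm_num) a5
      _ ≤ 2 ^ (8 * (ρ + 1) * T * (448 * ρ + 14)) * X := Nat.le_mul_of_pos_right _ hXpos
      _ ≤ X' := hX'
  · have h1 := sum_gS_le ρ (ρ - 8) (by omega) (fun s h7 hs => gS_le ρ s hρ h7 hs)
    unfold FS
    omega

end Vale.Agent.Lib.P012
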